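import Mathlib
import Vale.Agent.P249.Defs
import Vale.Agent.P249.Upper

/-!
# P249: a near-linear upper bound for dimension reduction in `L_p`
-/

open MeasureTheory
open scoped ENNReal
open Vale.Agent.P249

universe u

/-- For every `1 ≤ p < ∞` and `D > 1` there is `C` such that for every `n ≥ 2` every `n`-point
subset of every `L_p` space embeds with distortion at most `D` into `ℓ_p^d` for some
`d ≤ C n (log n)^p`; that is, `d_p(n, D) ≤ C n (log n)^p`. -/
theorem Vale.Agent.Results.P249.NearLinear.result (p : ℝ≥0∞) [Fact (1 ≤ p)] (hp : p ≠ ∞)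
    (D : ℝ) (hD : 1 < D) :
    ∃ C : ℝ, 0 < C ∧ ∀ n : ℕ, 2 ≤ n →
      (∃ d : ℕ, (d : ℝ) ≤ C * n * Real.log n ^ p.toReal ∧ Admissible.{u} p n D d) ∧
      (dimL.{u} p n D : ℝ) ≤ C * n * Real.log n ^ p.toReal := by
  obtain ⟨C, hC, h⟩ := admissible_upper.{u} p hp hD
  refine ⟨C, hC, fun n hn => ?_⟩
  obtain ⟨d, hd, had⟩ := h n hn
  refine ⟨⟨d, hd, had⟩, ?_⟩
  have h1 : dimL.{u} p n D ≤ d := Nat.sInf_le had
  have h2 : (dimL.{u} p n D : ℝ) ≤ d := by exact_mod_cast h1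
  exact h2.trans hd
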