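import Mathlib
import Vale.Agent.P249.Defs
import Vale.Agent.P249.Upper
import Vale.Agent.P249.Lower

/-!
# P249: two-sided bounds for dimension reduction in `L_p`
-/

open MeasureTheory
open scoped ENNReal
open Vale.Agent.P249

universe u

/-- For every `1 ≤ p < ∞` and `D > 1` one has `d_p(n, D) ≤ C n (log n)^p` for all `n ≥ 2`, and
for `p > 2` moreover `d_p(n, D) ≥ c (log n / log log n)^{p/2}` for all `n ≥ 16`. -/
theorem Vale.Agent.Results.P249.TwoSided.result (p : ℝ≥0∞) [Fact (1 ≤ p)] (hp : p ≠ ∞)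
    (D : ℝ) (hD : 1 < D) :
    (∃ C : ℝ, 0 < C ∧ ∀ n : ℕ, 2 ≤ n →
      (∃ d : ℕ, (d : ℝ) ≤ C * n * Real.log n ^ p.toReal ∧ Admissible.{u} p n D d) ∧
      (dimL.{u} p n D : ℝ) ≤ C * n * Real.log n ^ p.toReal) ∧
    (2 < p → ∃ c : ℝ, 0 < c ∧ ∀ n : ℕ, 16 ≤ n →
      c * (Real.log n / Real.log (Real.log n)) ^ (p.toReal / 2) ≤ dimL.{u} p n D) := by
  obtain ⟨C, hC, h⟩ := admissible_upper.{u} p hp hD
  refine ⟨⟨C, hC, fun n hn => ?_⟩, fun h2 => ?_⟩
  · obtain ⟨d, hd, had⟩ := h n hn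
    refine ⟨⟨d, hd, had⟩, ?_⟩
    have h1 : dimL.{u} p n D ≤ d := Nat.sInf_le had
    have h2 : (dimL.{u} p n D : ℝ) ≤ d := by exact_mod_cast h1
    exact h2.trans hd
  · have hq : 2 ≤ p.toReal := by
      have := (ENNReal.toReal_le_toReal (by norm_num) hp).mpr h2.le
      simpa using this
    obtain ⟨c, hc, hlow⟩ := lower_main.{u} p hq (by linarith : 0 < D)
    refine ⟨c, hc, fun n hn => ?_⟩
    obtain ⟨d, -, had⟩ := h n (by omega)
    exact hlow n hn _ (Nat.sInf_mem (s := {d : ℕ | Admissible.{u} p n D d}) ⟨d, had⟩)
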